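import Vale.Agent.Lib.P227.Stretch
import Vale.Agent.Lib.P227.Line

/-!
# P227: our results on the logarithmic Brunn-Minkowski inequality in one statement

(1)-(3) closure under Cartesian products, intervals, cylinders;
(4) the pair formed by a body with one block reflection symmetry and its block stretch.
-/

namespace Vale.Agent.Results.P227.AAllResults

open _root_.P227

theorem result :
    (∀ (ι κ : Type) [Fintype ι] [Fintype κ] (K₁ L₁ : Set (ι → ℝ)) (K₂ L₂ : Set (κ → ℝ))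
      (lam : ℝ), IsSymBody K₁ → IsSymBody L₁ → IsSymBody K₂ → IsSymBody L₂ → 0 ≤ lam → lam ≤ 1 →
      IsSymBody (P237.prod K₁ K₂) ∧ IsSymBody (P237.prod L₁ L₂) ∧
      P237.prod (logComb lam K₁ L₁) (logComb lam K₂ L₂)
        ⊆ logComb lam (P237.prod K₁ K₂) (P237.prod L₁ L₂) ∧
      (LBM lam K₁ L₁ → LBM lam K₂ L₂ → LBM lam (P237.prod K₁ K₂) (P237.prod L₁ L₂))) ∧
    (∀ a b lam : ℝ, 0 < a → 0 < b →
      IsSymBody (P237.seg1 (-a) a) ∧ LBM lam (P237.seg1 (-a) a) (P237.seg1 (-b) b)) ∧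
    (∀ (ι : Type) [Fintype ι] (K L : Set (ι → ℝ)) (lam a b : ℝ), IsSymBody K → IsSymBody L →
      0 ≤ lam → lam ≤ 1 → 0 < a → 0 < b → LBM lam K L →
      LBM lam (P237.prod K (P237.seg1 (-a) a)) (P237.prod L (P237.seg1 (-b) b))) ∧
    (∀ (ι κ : Type) [Fintype ι] [Fintype κ] (K : Set (ι ⊕ κ → ℝ)) (s t lam : ℝ),
      IsSymBody K → (∀ z ∈ K, str (-1) 1 z ∈ K) → 0 < s → 0 < t → 0 ≤ lam → lam ≤ 1 →
      IsSymBody (str s t '' K) ∧
      str (s ^ lam) (t ^ lam) '' K ⊆ logComb lam K (str s t '' K) ∧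
      LBM lam K (str s t '' K)) := by
  refine ⟨?_, ?_, ?_, ?_⟩
  · intro ι κ _ _ K₁ L₁ K₂ L₂ lam hK₁ hL₁ hK₂ hL₂ h0 h1
    exact ⟨isSymBody_prod hK₁ hK₂, isSymBody_prod hL₁ hL₂,
      prod_logComb_subset hK₁ hL₁ hK₂ hL₂ h0 h1, lbm_prod hK₁ hL₁ hK₂ hL₂ h0 h1⟩
  · intro a b lam ha hb
    exact ⟨isSymBody_seg1 ha, lbm_seg1 ha hb lam⟩
  · intro ι _ K L lam a b hK hL h0 h1 ha hb H
    exact lbm_cylinder hK hL h0 h1 ha hb H
  · intro ι κ _ _ K s t lam hK hflip hs ht h0 h1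
    exact ⟨isSymBody_str hK hs ht, str_subset_logComb hK hflip hs ht h0 h1,
      lbm_str hK hflip hs ht h0 h1⟩

end Vale.Agent.Results.P227.AAllResults
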